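import Mathlib
import Vale.Agent.H3.EgyMain
import Vale.Agent.H73.EgyFinal

/-!
# P012: short Egyptian fractions, both upper bounds in one statement

First part: there is an absolute constant `C` such that every fraction `a / b` with `1 ≤ a < b`
and `b ≥ 16` is a sum of at most `C * (log log b) * (log log log b)` distinct unit fractions
`1 / n` with `n ≥ 2`.  Second part: there is an absolute constant `C` such that every fraction
`a / b` with `1 ≤ a < b` (every `b ≥ 2`) is a sum of at most `C * (log log b)^2` distinct unit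
fractions `1 / n` with `n ≥ 2`.
-/

namespace Vale.Agent.Results.P012.A_LogLogBoth

theorem result :
    (∃ C : ℝ, ∀ a b : ℕ, 0 < a → a < b → 16 ≤ b →
      ∃ S : Finset ℕ, (∀ n ∈ S, 2 ≤ n) ∧ ∑ n ∈ S, (1 : ℚ) / (n : ℚ) = (a : ℚ) / (b : ℚ) ∧
        (S.card : ℝ) ≤
          C * Real.log (Real.log (b : ℝ)) * Real.log (Real.log (Real.log (b : ℝ)))) ∧
    (∃ C : ℝ, ∀ a b : ℕ, 0 < a → a < b →
      ∃ S : Finset ℕ, (∀ n ∈ S, 2 ≤ n) ∧ ∑ n ∈ S, (1 : ℚ) / (n : ℚ) = (a : ℚ) / (b : ℚ) ∧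
        (S.card : ℝ) ≤ C * (Real.log (Real.log (b : ℝ))) ^ 2) :=
  ⟨Vale.Agent.H73.egypt_loglog_logloglog, Vale.Agent.H3.egypt_loglog_sq⟩

end Vale.Agent.Results.P012.A_LogLogBoth
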