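import Mathlib
import Vale.Agent.H3.EgyMain

/-!
# P012: short Egyptian fractions, `N(b) ≤ C (log log b)^2`

Every fraction `a / b` with `1 ≤ a < b` is a sum of at most `C * (log log b)^2` distinct unit
fractions `1 / n` with `n ≥ 2`, for an absolute constant `C`.
-/

namespace Vale.Agent.Results.P012.A_LogLogSquared

theorem result : ∃ C : ℝ, ∀ a b : ℕ, 0 < a → a < b →
    ∃ S : Finset ℕ, (∀ n ∈ S, 2 ≤ n) ∧ ∑ n ∈ S, (1 : ℚ) / (n : ℚ) = (a : ℚ) / (b : ℚ) ∧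
      (S.card : ℝ) ≤ C * (Real.log (Real.log (b : ℝ))) ^ 2 :=
  Vale.Agent.H3.egypt_loglog_sq

end Vale.Agent.Results.P012.A_LogLogSquared
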