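import Mathlib
import Vale.Agent.H73.EgyFinal

/-!
# P012: short Egyptian fractions, `N(b) ≤ C (log log b) (log log log b)`

Every fraction `a / b` with `1 ≤ a < b` and `b ≥ 16` is a sum of at most
`C * (log log b) * (log log log b)` distinct unit fractions `1 / n` with `n ≥ 2`, for an
absolute constant `C`.
-/

namespace Vale.Agent.Results.P012.A_LogLogTimesLogLogLog

theorem result : ∃ C : ℝ, ∀ a b : ℕ, 0 < a → a < b → 16 ≤ b →
    ∃ S : Finset ℕ, (∀ n ∈ S, 2 ≤ n) ∧ ∑ n ∈ S, (1 : ℚ) / (n : ℚ) = (a : ℚ) / (b : ℚ) ∧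
      (S.card : ℝ) ≤ C * Real.log (Real.log (b : ℝ)) * Real.log (Real.log (Real.log (b : ℝ))) :=
  Vale.Agent.H73.egypt_loglog_logloglog

end Vale.Agent.Results.P012.A_LogLogTimesLogLogLog
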