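import Mathlib
import Vale.Agent.H73.EgyFinal

/-!
# P012: short Egyptian fractions, the bound for `N(b)` in the literal form of the question

For `1 ≤ a < b` let `N(a, b)` be the least number of distinct unit fractions `1 / n`, `n ≥ 2`,
with sum `a / b`, and let `N(b)` be the greatest of the numbers `N(a, b)`, `1 ≤ a < b`.  There is
an absolute constant `C > 0` such that for every `b ≥ 16` the number `N(b)` exists and
`N(b) ≤ C * (log log b) * (log log log b)`.  Here `N(a, b)` is expressed by `IsLeast` and `N(b)`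
by `IsGreatest`, so both are true extrema.
-/

namespace Vale.Agent.Results.P012.A_NbUpperBoundLiteral

theorem nb_loglog_nonneg (b : ℕ) (hb : 16 ≤ b) :
    0 ≤ Real.log (Real.log (b : ℝ)) * Real.log (Real.log (Real.log (b : ℝ))) := by
  have hb' : (16 : ℝ) ≤ (b : ℝ) := by exact_mod_cast hb
  have h16 : Real.exp 1 ≤ Real.log 16 := by
    have h2 : Real.log 16 = 4 * Real.log 2 := by
      rw [show (16 : ℝ) = 2 ^ 4 by norm_num, Real.log_pow]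
      norm_num
    have h3 := Real.log_two_gt_d9
    have h4 := Real.exp_one_lt_d9
    rw [h2]
    linarith
  have hlog : Real.exp 1 ≤ Real.log (b : ℝ) :=
    le_trans h16 (Real.log_le_log (by norm_num) hb')
  have h1 : 1 ≤ Real.log (Real.log (b : ℝ)) := by
    have h5 := Real.log_le_log (Real.exp_pos 1) hlog
    rwa [Real.log_exp] at h5
  have h2 : 0 ≤ Real.log (Real.log (Real.log (b : ℝ))) := Real.log_nonneg h1
  exact mul_nonneg (by linarith) h2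

theorem result : ∃ C : ℝ, 0 < C ∧ ∀ b : ℕ, 16 ≤ b →
    ∃ N : ℕ,
      IsGreatest {k : ℕ | ∃ a : ℕ, 0 < a ∧ a < b ∧
        IsLeast {j : ℕ | ∃ S : Finset ℕ, S.card = j ∧ (∀ n ∈ S, 2 ≤ n) ∧
          ∑ n ∈ S, (1 : ℚ) / (n : ℚ) = (a : ℚ) / (b : ℚ)} k} N ∧
      (N : ℝ) ≤ C * Real.log (Real.log (b : ℝ)) * Real.log (Real.log (Real.log (b : ℝ))) := by
  obtain ⟨C₀, hC₀⟩ := Vale.Agent.H73.egypt_loglog_logloglog
  refine ⟨max C₀ 1, lt_of_lt_of_le one_pos (le_max_right _ _), ?_⟩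
  intro b hb
  have hL := nb_loglog_nonneg b hb
  have key : ∀ a : ℕ, 0 < a → a < b → ∃ k : ℕ,
      IsLeast {j : ℕ | ∃ S : Finset ℕ, S.card = j ∧ (∀ n ∈ S, 2 ≤ n) ∧
          ∑ n ∈ S, (1 : ℚ) / (n : ℚ) = (a : ℚ) / (b : ℚ)} k ∧
      (k : ℝ) ≤ max C₀ 1 * Real.log (Real.log (b : ℝ)) *
        Real.log (Real.log (Real.log (b : ℝ))) := by
    intro a ha hab
    obtain ⟨S, hS2, hSsum, hScard⟩ := hC₀ a b ha hab hb
    classical
    have hne : ∃ j : ℕ, ∃ S : Finset ℕ, S.card = j ∧ (∀ n ∈ S, 2 ≤ n) ∧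
        ∑ n ∈ S, (1 : ℚ) / (n : ℚ) = (a : ℚ) / (b : ℚ) := ⟨S.card, S, rfl, hS2, hSsum⟩
    refine ⟨Nat.find hne, ⟨Nat.find_spec hne, fun j hj => Nat.find_min' hne hj⟩, ?_⟩
    have h1 : Nat.find hne ≤ S.card := Nat.find_min' hne ⟨S, rfl, hS2, hSsum⟩
    have h2 : ((Nat.find hne : ℕ) : ℝ) ≤ (S.card : ℝ) := by exact_mod_cast h1
    have h3 : C₀ * Real.log (Real.log (b : ℝ)) * Real.log (Real.log (Real.log (b : ℝ)))
        ≤ max C₀ 1 * Real.log (Real.log (b : ℝ)) *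
          Real.log (Real.log (Real.log (b : ℝ))) := by
      rw [mul_assoc, mul_assoc]
      exact mul_le_mul_of_nonneg_right (le_max_left _ _) hL
    linarith
  have hbound : ∀ k : ℕ, (∃ a : ℕ, 0 < a ∧ a < b ∧
        IsLeast {j : ℕ | ∃ S : Finset ℕ, S.card = j ∧ (∀ n ∈ S, 2 ≤ n) ∧
          ∑ n ∈ S, (1 : ℚ) / (n : ℚ) = (a : ℚ) / (b : ℚ)} k) →
      (k : ℝ) ≤ max C₀ 1 * Real.log (Real.log (b : ℝ)) *
        Real.log (Real.log (Real.log (b : ℝ))) := by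
    rintro k ⟨a, ha, hab, hk⟩
    obtain ⟨k', hk', hb'⟩ := key a ha hab
    have hkk : k = k' := hk.unique hk'
    rw [hkk]
    exact hb'
  have hKne : {k : ℕ | ∃ a : ℕ, 0 < a ∧ a < b ∧
        IsLeast {j : ℕ | ∃ S : Finset ℕ, S.card = j ∧ (∀ n ∈ S, 2 ≤ n) ∧
          ∑ n ∈ S, (1 : ℚ) / (n : ℚ) = (a : ℚ) / (b : ℚ)} k}.Nonempty := by
    obtain ⟨k, hk, _⟩ := key 1 one_pos (by omega)
    exact ⟨k, 1, one_pos, by omega, hk⟩
  have hKbdd : BddAbove {k : ℕ | ∃ a : ℕ, 0 < a ∧ a < b ∧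
        IsLeast {j : ℕ | ∃ S : Finset ℕ, S.card = j ∧ (∀ n ∈ S, 2 ≤ n) ∧
          ∑ n ∈ S, (1 : ℚ) / (n : ℚ) = (a : ℚ) / (b : ℚ)} k} := by
    refine ⟨⌊max C₀ 1 * Real.log (Real.log (b : ℝ)) *
      Real.log (Real.log (Real.log (b : ℝ)))⌋₊, ?_⟩
    intro k hk
    exact Nat.le_floor (hbound k hk)
  refine ⟨sSup {k : ℕ | ∃ a : ℕ, 0 < a ∧ a < b ∧
        IsLeast {j : ℕ | ∃ S : Finset ℕ, S.card = j ∧ (∀ n ∈ S, 2 ≤ n) ∧
          ∑ n ∈ S, (1 : ℚ) / (n : ℚ) = (a : ℚ) / (b : ℚ)} k},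
    ⟨Nat.sSup_mem hKne hKbdd, fun k hk => le_csSup hKbdd hk⟩, ?_⟩
  exact hbound _ (Nat.sSup_mem hKne hKbdd)

end Vale.Agent.Results.P012.A_NbUpperBoundLiteral
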